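import Vale.Agent.P160.H884.Basic

/-! # P160 / H884: two-point alphabets -/

open Finset Filter Topology

namespace Vale.Agent.P160.H884

open Vale.Agent.P160.H462 (Bits signMat bitMat prob Small)

variable {n : ℕ}

/-- adding a multiple of the all-ones matrix changes the determinant affinely -/
theorem det_add_ones {R : Type} [CommRing R] (B : Matrix (Fin n) (Fin n) R) :
    ∃ s t : R, ∀ x : R, (B + Matrix.of fun _ _ => x).det = x * s + t := by
  classical
  set M : Matrix (Fin n ⊕ Unit) (Fin n ⊕ Unit) R :=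
    Matrix.fromBlocks B (Matrix.of fun _ _ => 1) 0 1 with hM
  refine ⟨(M.updateRow (Sum.inr ()) (Sum.elim (fun _ => -1) (fun _ => 0))).det,
    (M.updateRow (Sum.inr ()) (Sum.elim (fun _ => 0) (fun _ => 1))).det, fun x => ?_⟩
  rw [← Matrix.det_updateRow_smul, ← Matrix.det_updateRow_add]
  have h1 : M.updateRow (Sum.inr ()) (x • Sum.elim (fun _ => (-1 : R)) (fun _ => (0 : R)) +
      Sum.elim (fun _ => (0 : R)) (fun _ => (1 : R))) =
      Matrix.fromBlocks B (Matrix.of fun _ _ => 1) (Matrix.of fun _ _ => -x) 1 := by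
    ext i j
    rcases i with i | i
    · rw [Matrix.updateRow_ne (by simp)]
      rcases j with j | j <;> simp [hM]
    · rcases j with j | j <;> simp
  rw [h1, Matrix.det_fromBlocks_one₂₂]
  congr 1
  ext i j
  simp [Matrix.mul_apply]

theorem twoMat_eq (a b : ℝ) (c : Bits n) : twoMat a b c =
    (a - b) • (bitMat c).map (Int.cast : ℤ → ℝ) + Matrix.of fun _ _ => b := by
  ext i j
  show (if c s(i, j) then a else b) = (a - b) * (((if c s(i, j) then (1 : ℤ) else 0) : ℤ) : ℝ) + b
  split_ifs <;> simp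

theorem twoMat_zero (a : ℝ) (c : Bits n) : twoMat a 0 c = a • (bitMat c).map (Int.cast : ℤ → ℝ) := by
  ext i j
  show (if c s(i, j) then a else 0) = a * (((if c s(i, j) then (1 : ℤ) else 0) : ℤ) : ℝ)
  split_ifs <;> simp

theorem twoMat_neg (b : ℝ) (c : Bits n) : twoMat (-b) b c = b • (signMat c).map (Int.cast : ℤ → ℝ) := by
  ext i j
  show (if c s(i, j) then -b else b) = b * (((if c s(i, j) then (-1 : ℤ) else 1) : ℤ) : ℝ)
  split_ifs <;> simp

theorem det_map_cast (B : Matrix (Fin n) (Fin n) ℤ) : (B.map (Int.cast : ℤ → ℝ)).det = (B.det : ℝ) := by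
  have h := RingHom.map_det (Int.castRingHom ℝ) B
  exact h.symm

theorem det_twoMat_irr {a b : ℝ} (h : Irrational (a / b)) {c : Bits n} (hc : (twoMat a b c).det = 0) :
    (bitMat c).det = 0 := by
  have hb : b ≠ 0 := by
    rintro rfl
    rw [div_zero] at h
    exact h ⟨0, by simp⟩
  have hab : a - b ≠ 0 := by
    intro h1
    have h2 : a / b = 1 := by
      rw [sub_eq_zero.1 h1, div_self hb]
    rw [h2] at h
    exact h ⟨1, by simp⟩
  obtain ⟨s, t, hst⟩ := det_add_ones ((bitMat c).map (Int.cast : ℤ → ℝ))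
  have h0 : t = ((bitMat c).det : ℝ) := by
    have h1 := hst 0
    have h2 : (bitMat c).map (Int.cast : ℤ → ℝ) + (Matrix.of fun _ _ => (0 : ℝ)) = (bitMat c).map (Int.cast : ℤ → ℝ) := by
      ext i j
      simp
    rw [h2, det_map_cast, zero_mul, zero_add] at h1
    exact h1.symm
  have h1 : s + t = ((bitMat c + Matrix.of fun _ _ => 1 : Matrix (Fin n) (Fin n) ℤ).det : ℝ) := by
    have h1 := hst 1
    have h2 : (bitMat c).map (Int.cast : ℤ → ℝ) + (Matrix.of fun _ _ => (1 : ℝ)) =
        (bitMat c + Matrix.of fun _ _ => 1 : Matrix (Fin n) (Fin n) ℤ).map (Int.cast : ℤ → ℝ) := by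
      ext i j
      simp
    rw [h2, det_map_cast, one_mul] at h1
    exact h1.symm
  have h3 : twoMat a b c = (a - b) • ((bitMat c).map (Int.cast : ℤ → ℝ) + Matrix.of fun _ _ => b / (a - b)) := by
    rw [twoMat_eq, smul_add]
    congr 1
    ext i j
    simp only [Matrix.of_apply, Matrix.smul_apply, smul_eq_mul]
    field_simp
  rw [h3, Matrix.det_smul, hst, mul_eq_zero] at hc
  have h4 : b / (a - b) * s + t = 0 := hc.resolve_left (pow_ne_zero _ hab)
  have h5 : a * t + b * (s - t) = 0 := by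
    have h6 : (a - b) * (b / (a - b) * s + t) = 0 := by rw [h4, mul_zero]
    have h7 : (a - b) * (b / (a - b) * s + t) = b * s + (a - b) * t := by
      field_simp
    rw [h7] at h6
    linarith
  by_contra hdet
  have ht : t ≠ 0 := by
    rw [h0]
    exact_mod_cast hdet
  generalize (bitMat c + Matrix.of fun _ _ => 1 : Matrix (Fin n) (Fin n) ℤ).det = u at h1
  generalize (bitMat c).det = d at h0 hdet
  apply h
  refine ⟨((2 * d - u : ℤ) : ℚ) / (d : ℚ), ?_⟩
  push_cast
  have h8 : s = (u : ℝ) - t := by linarith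
  rw [← h0, div_eq_div_iff ht hb]
  rw [h8] at h5
  linarith

theorem half_pow_lower (ε : ℝ) (hε : 0 < ε) (n : ℕ) : Real.exp (-((Real.log 2 + ε) * n)) ≤ (1 / 2 : ℝ) ^ n := by
  have e0 : (1 / 2 : ℝ) ^ n = Real.exp (-(Real.log 2 * n)) := by
    rw [Real.exp_neg, mul_comm (Real.log 2), Real.exp_nat_mul, Real.exp_log (by norm_num), one_div, inv_pow]
  rw [e0]
  refine Real.exp_le_exp.2 ?_
  have : 0 ≤ ε * n := by positivity
  linarith

theorem lower_two (a b : ℝ) (ε : ℝ) (hε : 0 < ε) : ∀ᶠ n : ℕ in atTop,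
    Real.exp (-((Real.log 2 + ε) * n)) ≤ prob (0 : Sym2 (Fin n) → ℝ) {c | (twoMat a b c).det = 0} := by
  filter_upwards [eventually_ge_atTop 2] with n hn
  have hij : (⟨0, by omega⟩ : Fin n) ≠ ⟨1, by omega⟩ := by simp
  exact (half_pow_lower ε hε n).trans ((H462.prob_eqRows _ _ hij).trans
    (H462.prob_zero_mono fun c hc => twoMat_eqRows a b hij hc))

theorem upper_two (hs : Small fun n => {b : Bits n | (signMat b).det = 0})
    (hb : Small fun n => {b : Bits n | (bitMat b).det = 0}) (a b : ℝ) (hab : a ≠ b)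
    (h : b = 0 ∨ a = -b ∨ Irrational (a / b)) (ε : ℝ) (hε : 0 < ε) : ∀ᶠ n : ℕ in atTop,
    prob (0 : Sym2 (Fin n) → ℝ) {c | (twoMat a b c).det = 0} ≤ Real.exp (-((Real.log 2 - ε) * n)) := by
  rcases h with h | h | h
  · subst h
    filter_upwards [hb ε hε] with n hn
    refine le_trans (H462.prob_zero_mono fun c hc => ?_) hn
    have hc' : (twoMat a 0 c).det = 0 := hc
    rw [twoMat_zero, Matrix.det_smul, det_map_cast, mul_eq_zero] at hc'
    have := hc'.resolve_left (pow_ne_zero _ hab)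
    show (bitMat c).det = 0
    exact_mod_cast this
  · subst h
    filter_upwards [hs ε hε] with n hn
    refine le_trans (H462.prob_zero_mono fun c hc => ?_) hn
    have hc' : (twoMat (-b) b c).det = 0 := hc
    have hb0 : b ≠ 0 := by
      rintro rfl
      simp at hab
    rw [twoMat_neg, Matrix.det_smul, det_map_cast, mul_eq_zero] at hc'
    have := hc'.resolve_left (pow_ne_zero _ hb0)
    show (signMat c).det = 0
    exact_mod_cast this
  · filter_upwards [hb ε hε] with n hn
    exact le_trans (H462.prob_zero_mono fun c hc => det_twoMat_irr h hc) hn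

theorem alphabet (hs : Small fun n => {b : Bits n | (signMat b).det = 0})
    (hb : Small fun n => {b : Bits n | (bitMat b).det = 0}) (a b : ℝ) (hab : a ≠ b)
    (h : a = 0 ∨ b = 0 ∨ a = -b ∨ Irrational (a / b)) :
    Tendsto (fun n : ℕ => pr (TwoPoint a b n) {A | A.det = 0} ^ (1 / (n : ℝ))) atTop (𝓝 (1 / 2)) := by
  have key : ∀ a b : ℝ, a ≠ b → (b = 0 ∨ a = -b ∨ Irrational (a / b)) →
      Tendsto (fun n : ℕ => pr (TwoPoint a b n) {A | A.det = 0} ^ (1 / (n : ℝ))) atTop (𝓝 (1 / 2)) := by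
    intro a b hab h
    have h1 : (fun n : ℕ => pr (TwoPoint a b n) {A | A.det = 0} ^ (1 / (n : ℝ))) =
        fun n : ℕ => prob (0 : Sym2 (Fin n) → ℝ) {c | (twoMat a b c).det = 0} ^ (1 / (n : ℝ)) := by
      funext n
      rw [pr_two hab]
      rfl
    rw [h1]
    exact H462.tendsto_root _ (fun n => H462.prob_zero_nonneg _) (upper_two hs hb a b hab h) (lower_two a b)
  rcases h with h | h
  · have h2 : (fun n : ℕ => pr (TwoPoint a b n) {A | A.det = 0} ^ (1 / (n : ℝ))) =
        fun n : ℕ => pr (TwoPoint b a n) {A | A.det = 0} ^ (1 / (n : ℝ)) := by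
      funext n
      rw [TwoPoint_comm]
    rw [h2]
    exact key b a hab.symm (Or.inl h)
  · exact key a b hab h

end Vale.Agent.P160.H884
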