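import Vale.Agent.P160.H884.Defs
import Vale.Agent.P160.H462.Lower

/-! # P160 / H884: models as images of bit arrays -/

open Finset Filter Topology

namespace Vale.Agent.P160.H884

open Vale.Agent.P160.H462 (Bits signMat bitMat prob)

variable {n : ℕ}

/-- the uniform measure on the injective image of the bit arrays -/
theorem pr_image {α : Type} (f : Bits n → α) (hf : Function.Injective f) (E : Set α) :
    pr (Set.range f) E = prob (0 : Sym2 (Fin n) → ℝ) {b | f b ∈ E} := by
  classical
  rw [H462.prob_zero, pr]
  have h1 : Set.range f ∩ E = f '' {b | f b ∈ E} := by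
    ext x
    constructor
    · rintro ⟨⟨b, rfl⟩, hb⟩
      exact ⟨b, hb, rfl⟩
    · rintro ⟨b, hb, rfl⟩
      exact ⟨⟨b, rfl⟩, hb⟩
  have h2 : (Set.range f).ncard = 2 ^ Fintype.card (Sym2 (Fin n)) := by
    rw [← Set.image_univ, Set.ncard_image_of_injective _ hf, Set.ncard_univ, Nat.card_eq_fintype_card,
      Fintype.card_fun, Fintype.card_bool]
  rw [h1, Set.ncard_image_of_injective _ hf, h2]
  have h3 : ({b | f b ∈ E} : Set (Bits n)).ncard = (univ.filter fun b : Bits n => b ∈ {b | f b ∈ E}).card := by
    rw [← Set.ncard_coe_finset]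
    congr 1
    ext b
    simp
  rw [h3]
  push_cast
  rfl

theorem signMat_injective : Function.Injective (signMat (n := n)) := by
  intro b b' h
  funext e
  induction e using Sym2.ind with
  | _ i j =>
    have h1 : (if b s(i, j) then (-1 : ℤ) else 1) = if b' s(i, j) then (-1 : ℤ) else 1 :=
      congrFun (congrFun h i) j
    by_cases hb : b s(i, j) = true <;> by_cases hb' : b' s(i, j) = true <;> simp_all

theorem range_signMat (n : ℕ) : Set.range (signMat (n := n)) = SymmetricSignMatrices n := by
  ext A
  constructor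
  · rintro ⟨b, rfl⟩
    refine ⟨?_, fun i j => ?_⟩
    · ext i j
      show (if b s(j, i) then (-1 : ℤ) else 1) = if b s(i, j) then (-1 : ℤ) else 1
      rw [Sym2.eq_swap]
    · show (if b s(i, j) then (-1 : ℤ) else 1) = 1 ∨ (if b s(i, j) then (-1 : ℤ) else 1) = -1
      split_ifs
      · exact Or.inr rfl
      · exact Or.inl rfl
  · rintro ⟨hs, hA⟩
    refine ⟨Sym2.lift ⟨fun i j => decide (A i j = -1), fun i j => ?_⟩, ?_⟩
    · have := hs.apply i j
      show decide (A i j = -1) = decide (A j i = -1)
      rw [this]
    · ext i j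
      show (if Sym2.lift ⟨fun i j => decide (A i j = -1), _⟩ s(i, j) then (-1 : ℤ) else 1) = A i j
      rw [Sym2.lift_mk]
      rcases hA i j with h | h
      · simp [h]
      · simp [h]

theorem pr_sign (n : ℕ) (E : Set (Matrix (Fin n) (Fin n) ℤ)) :
    pr (SymmetricSignMatrices n) E = prob (0 : Sym2 (Fin n) → ℝ) {b | signMat b ∈ E} := by
  rw [← range_signMat, pr_image _ signMat_injective]

/-- two values -/
noncomputable def twoMat (a b : ℝ) {n : ℕ} (c : Bits n) : Matrix (Fin n) (Fin n) ℝ :=
  fun i j => if c s(i, j) then a else b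

theorem twoMat_injective {a b : ℝ} (hab : a ≠ b) : Function.Injective (twoMat a b (n := n)) := by
  intro c c' h
  funext e
  induction e using Sym2.ind with
  | _ i j =>
    have h1 : (if c s(i, j) then a else b) = if c' s(i, j) then a else b :=
      congrFun (congrFun h i) j
    by_cases hb : c s(i, j) = true <;> by_cases hb' : c' s(i, j) = true
    · rw [hb, hb']
    · rw [if_pos hb, if_neg hb'] at h1
      exact absurd h1 hab
    · rw [if_neg hb, if_pos hb'] at h1
      exact absurd h1.symm hab
    · rw [Bool.not_eq_true] at hb hb'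
      rw [hb, hb']

theorem range_twoMat {a b : ℝ} (hab : a ≠ b) (n : ℕ) : Set.range (twoMat a b (n := n)) = TwoPoint a b n := by
  classical
  ext A
  constructor
  · rintro ⟨c, rfl⟩
    refine ⟨?_, fun i j => ?_⟩
    · ext i j
      show (if c s(j, i) then a else b) = if c s(i, j) then a else b
      rw [Sym2.eq_swap]
    · show (if c s(i, j) then a else b) = a ∨ (if c s(i, j) then a else b) = b
      split_ifs
      · exact Or.inl rfl
      · exact Or.inr rfl
  · rintro ⟨hs, hA⟩
    refine ⟨Sym2.lift ⟨fun i j => decide (A i j = a), fun i j => ?_⟩, ?_⟩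
    · have := hs.apply i j
      show decide (A i j = a) = decide (A j i = a)
      rw [this]
    · ext i j
      show (if Sym2.lift ⟨fun i j => decide (A i j = a), _⟩ s(i, j) then a else b) = A i j
      rw [Sym2.lift_mk]
      rcases hA i j with h | h
      · simp [h]
      · simp [h, hab.symm]

theorem pr_two {a b : ℝ} (hab : a ≠ b) (n : ℕ) (E : Set (Matrix (Fin n) (Fin n) ℝ)) :
    pr (TwoPoint a b n) E = prob (0 : Sym2 (Fin n) → ℝ) {c | twoMat a b c ∈ E} := by
  rw [← range_twoMat hab, pr_image _ (twoMat_injective hab)]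

theorem TwoPoint_comm (a b : ℝ) (n : ℕ) : TwoPoint a b n = TwoPoint b a n := by
  ext A
  exact and_congr_right fun _ => forall_congr' fun i => forall_congr' fun j => or_comm

/-- equal rows -/
theorem twoMat_eqRows (a b : ℝ) {i j : Fin n} (hij : i ≠ j) {c : Bits n} (h : c ∈ H462.EqRows i j) :
    (twoMat a b c).det = 0 := by
  refine Matrix.det_zero_of_row_eq hij ?_
  funext k
  show (if c s(i, k) then a else b) = if c s(j, k) then a else b
  rw [h k]

end Vale.Agent.P160.H884
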