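import Mathlib

/-! # P160 / H884: binomial coefficients near the middle -/

open Finset Filter Topology

namespace Vale.Agent.P160.H884

theorem le_mode (t : ℕ → ℝ) (m N : ℕ) (h1 : ∀ k, k < m → t k ≤ t (k + 1)) (h2 : ∀ k, m ≤ k → k < N → t (k + 1) ≤ t k)
    (k : ℕ) (hk : k ≤ N) : t k ≤ t m := by
  rcases le_total k m with h | h
  · obtain ⟨d, rfl⟩ := Nat.exists_eq_add_of_le h
    have : ∀ j, j ≤ d → t k ≤ t (k + j) := by
      intro j
      induction j with
      | zero => intro _; exact le_rfl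
      | succ j ih =>
        intro hj
        exact (ih (by omega)).trans (h1 (k + j) (by omega))
    exact this d le_rfl
  · obtain ⟨d, rfl⟩ := Nat.exists_eq_add_of_le h
    have : ∀ j, j ≤ d → t (m + j) ≤ t m := by
      intro j
      induction j with
      | zero => intro _; exact le_rfl
      | succ j ih =>
        intro hj
        exact (h2 (m + j) (by omega) (by omega)).trans (ih (by omega))
    exact this d le_rfl

/-- the mode of the binomial distribution with mean `m` -/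
theorem mode (N m : ℕ) (h0 : 0 < m) (h1 : m < N) :
    (N : ℝ) ^ N ≤ (N + 1) * ((m : ℝ) ^ m * (N - m : ℝ) ^ (N - m) * N.choose m) := by
  have hm : (0 : ℝ) < m := by exact_mod_cast h0
  have hN : (0 : ℝ) < N - m := by
    have : (m : ℝ) < N := by exact_mod_cast h1
    linarith
  set t : ℕ → ℝ := fun k => (m : ℝ) ^ k * (N - m : ℝ) ^ (N - k) * N.choose k with ht
  have hsum : (N : ℝ) ^ N = ∑ k ∈ range (N + 1), t k := by
    have h2 := add_pow (m : ℝ) (N - m : ℝ) N
    rw [add_sub_cancel] at h2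
    exact h2
  have step : ∀ k, k < N → ((k : ℝ) + 1) * N.choose (k + 1) = (N - k : ℝ) * N.choose k := by
    intro k hk
    have h2 := Nat.choose_succ_right_eq N k
    have h3 : ((N.choose (k + 1) * (k + 1) : ℕ) : ℝ) = ((N.choose k * (N - k) : ℕ) : ℝ) := by rw [h2]
    rw [Nat.cast_mul, Nat.cast_mul, Nat.cast_sub hk.le] at h3
    push_cast at h3
    linarith
  have e1 : ∀ k, k < N → t (k + 1) * (k + 1) = ((m : ℝ) ^ k * (N - m : ℝ) ^ (N - (k + 1)) * N.choose k) * (m * (N - k)) := by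
    intro k hk
    have h2 := step k hk
    simp only [ht]
    rw [pow_succ]
    calc (m : ℝ) ^ k * m * (N - m : ℝ) ^ (N - (k + 1)) * N.choose (k + 1) * (k + 1)
        = (m : ℝ) ^ k * m * (N - m : ℝ) ^ (N - (k + 1)) * ((k + 1) * N.choose (k + 1)) := by ring
      _ = _ := by rw [h2]; ring
  have e2 : ∀ k, k < N → t k * (k + 1) = ((m : ℝ) ^ k * (N - m : ℝ) ^ (N - (k + 1)) * N.choose k) * ((N - m) * (k + 1)) := by
    intro k hk
    simp only [ht]
    have h3 : N - k = (N - (k + 1)) + 1 := by omega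
    rw [h3, pow_succ]
    ring
  have pos : ∀ k, 0 ≤ (m : ℝ) ^ k * (N - m : ℝ) ^ (N - (k + 1)) * N.choose k := fun k => by positivity
  have up : ∀ k, k < m → t k ≤ t (k + 1) := by
    intro k hk
    have hkN : k < N := by omega
    have hk1 : (0 : ℝ) < (k : ℝ) + 1 := by positivity
    refine le_of_mul_le_mul_right ?_ hk1
    rw [e1 k hkN, e2 k hkN]
    refine mul_le_mul_of_nonneg_left ?_ (pos k)
    have h3 : (k : ℝ) + 1 ≤ m := by exact_mod_cast hk
    have h4 : (0 : ℝ) ≤ N := Nat.cast_nonneg _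
    nlinarith [mul_le_mul_of_nonneg_left h3 h4]
  have down : ∀ k, m ≤ k → k < N → t (k + 1) ≤ t k := by
    intro k hk hkN
    have hk1 : (0 : ℝ) < (k : ℝ) + 1 := by positivity
    refine le_of_mul_le_mul_right ?_ hk1
    rw [e1 k hkN, e2 k hkN]
    refine mul_le_mul_of_nonneg_left ?_ (pos k)
    have h3 : (m : ℝ) ≤ k := by exact_mod_cast hk
    have h4 : (0 : ℝ) ≤ N := Nat.cast_nonneg _
    nlinarith [mul_le_mul_of_nonneg_left h3 h4]
  rw [hsum]
  calc ∑ k ∈ range (N + 1), t k ≤ ∑ _k ∈ range (N + 1), t m :=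
        sum_le_sum fun k hk => le_mode t m N up down k (by rw [mem_range] at hk; omega)
    _ = _ := by
        rw [sum_const, card_range, nsmul_eq_mul]
        push_cast
        rfl

theorem choose_lower (N m : ℕ) (h0 : 0 < m) (h1 : m < N) :
    (2 : ℝ) ^ N * Real.exp (-((2 * m - N) ^ 2 / N)) / (N + 1) ≤ N.choose m := by
  have hm : (0 : ℝ) < m := by exact_mod_cast h0
  have hNm : (0 : ℝ) < N - m := by
    have : (m : ℝ) < N := by exact_mod_cast h1
    linarith
  have hN : (0 : ℝ) < N := by linarith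
  set d : ℝ := 2 * m - N with hd
  have hc : (0 : ℝ) ≤ N.choose m := Nat.cast_nonneg _
  have h2 : (2 * m / N : ℝ) ^ m ≤ Real.exp (d / N * m) := by
    rw [mul_comm (d / N) (m : ℝ), Real.exp_nat_mul]
    refine pow_le_pow_left₀ (by positivity) ?_ m
    have h3 := Real.add_one_le_exp (d / N)
    have h4 : (2 * m / N : ℝ) = d / N + 1 := by
      rw [hd]
      field_simp
      ring
    rw [h4]
    exact h3
  have h3 : (2 * (N - m) / N : ℝ) ^ (N - m) ≤ Real.exp (-(d / N) * (N - m)) := by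
    have h5 : (((N - m : ℕ) : ℕ) : ℝ) = (N : ℝ) - m := by rw [Nat.cast_sub h1.le]
    rw [← h5, mul_comm (-(d / N)) _, Real.exp_nat_mul]
    refine pow_le_pow_left₀ (by rw [h5]; positivity) ?_ _
    have h3 := Real.add_one_le_exp (-(d / N))
    have h4 : (2 * ((N - m : ℕ) : ℝ) / N : ℝ) = -(d / N) + 1 := by
      rw [h5, hd]
      field_simp
      ring
    rw [h4]
    exact h3
  have h4 : (2 : ℝ) ^ N * ((m : ℝ) ^ m * (N - m : ℝ) ^ (N - m)) ≤ (N : ℝ) ^ N * Real.exp (d ^ 2 / N) := by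
    have h5 : (2 : ℝ) ^ N * ((m : ℝ) ^ m * (N - m : ℝ) ^ (N - m)) =
        (N : ℝ) ^ N * ((2 * m / N : ℝ) ^ m * (2 * (N - m) / N : ℝ) ^ (N - m)) := by
      have h6 : N = m + (N - m) := by omega
      rw [div_pow, div_pow, mul_pow, mul_pow]
      have e2 : (2 : ℝ) ^ N = 2 ^ m * 2 ^ (N - m) := by rw [← pow_add, ← h6]
      have e3 : (N : ℝ) ^ N = (N : ℝ) ^ m * (N : ℝ) ^ (N - m) := by rw [← pow_add, ← h6]
      rw [e2, e3]
      field_simp
    rw [h5]
    refine mul_le_mul_of_nonneg_left ?_ (by positivity)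
    calc (2 * m / N : ℝ) ^ m * (2 * (N - m) / N : ℝ) ^ (N - m)
        ≤ Real.exp (d / N * m) * Real.exp (-(d / N) * (N - m)) :=
          mul_le_mul h2 h3 (by positivity) (Real.exp_pos _).le
      _ = Real.exp (d ^ 2 / N) := by
          rw [← Real.exp_add]
          congr 1
          rw [hd]
          field_simp
          ring
  have h5 := mode N m h0 h1
  have hNN : (0 : ℝ) < (N : ℝ) ^ N := by positivity
  rw [div_le_iff₀ (by positivity), Real.exp_neg, ← div_eq_mul_inv, div_le_iff₀ (Real.exp_pos _)]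
  have h6 : (2 : ℝ) ^ N * (N : ℝ) ^ N ≤ (N : ℝ) ^ N * ((N.choose m : ℝ) * (N + 1) * Real.exp (d ^ 2 / N)) := by
    calc (2 : ℝ) ^ N * (N : ℝ) ^ N
        ≤ (2 : ℝ) ^ N * ((N + 1) * ((m : ℝ) ^ m * (N - m : ℝ) ^ (N - m) * N.choose m)) :=
          mul_le_mul_of_nonneg_left h5 (by positivity)
      _ = ((2 : ℝ) ^ N * ((m : ℝ) ^ m * (N - m : ℝ) ^ (N - m))) * ((N + 1) * N.choose m) := by ring
      _ ≤ ((N : ℝ) ^ N * Real.exp (d ^ 2 / N)) * ((N + 1) * N.choose m) :=
          mul_le_mul_of_nonneg_right h4 (by positivity)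
      _ = _ := by ring
  rw [mul_comm ((2 : ℝ) ^ N)] at h6
  exact le_of_mul_le_mul_left h6 hNN

/-- uniform form: `C(N, m) ≥ 2^N e^(-εn)` for `N` of order `n²` and `|2m - N| ≤ η n^(3/2)` -/
theorem choose_mid (ε : ℝ) (hε : 0 < ε) : ∃ η : ℝ, 0 < η ∧ ∀ᶠ n : ℕ in atTop, ∀ N m : ℕ,
    (n : ℝ) ^ 2 / 4 ≤ N → (N : ℝ) ≤ (n : ℝ) ^ 2 → |2 * (m : ℝ) - N| ≤ η * (n : ℝ) ^ (3 / 2 : ℝ) →
    (2 : ℝ) ^ N * Real.exp (-(ε * n)) ≤ N.choose m := by
  obtain ⟨η, hη, hη2⟩ : ∃ η : ℝ, 0 < η ∧ 4 * η ^ 2 ≤ ε / 2 := by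
    refine ⟨min 1 (ε / 8), by positivity, ?_⟩
    have h1 : min 1 (ε / 8) ≤ 1 := min_le_left _ _
    have h2 : min 1 (ε / 8) ≤ ε / 8 := min_le_right _ _
    have h3 : 0 < min 1 (ε / 8) := by positivity
    nlinarith
  refine ⟨η, hη, ?_⟩
  have hl : Tendsto (fun n : ℕ => Real.log ((n : ℝ) ^ 2 + 1) / n) atTop (𝓝 0) := by
    have h1 : Tendsto (fun x : ℝ => Real.log x / x) atTop (𝓝 0) := by
      simpa using Real.isLittleO_log_id_atTop.tendsto_div_nhds_zero
    have h2 : Tendsto (fun n : ℕ => 3 * (Real.log n / (n : ℝ))) atTop (𝓝 0) := by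
      simpa using (h1.comp tendsto_natCast_atTop_atTop).const_mul 3
    refine squeeze_zero' (Eventually.of_forall fun n => ?_) ?_ h2
    · exact div_nonneg (Real.log_nonneg (by nlinarith [sq_nonneg (n : ℝ)])) (Nat.cast_nonneg _)
    · filter_upwards [eventually_ge_atTop 2] with n hn
      have hn2 : (2 : ℝ) ≤ n := by exact_mod_cast hn
      rw [← mul_div_assoc]
      refine div_le_div_of_nonneg_right ?_ (by linarith)
      have h3 : (3 : ℝ) * Real.log n = Real.log ((n : ℝ) ^ 3) := by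
        rw [Real.log_pow]
        norm_num
      rw [h3]
      refine Real.log_le_log (by positivity) ?_
      nlinarith [sq_nonneg (n : ℝ)]
  have hsmall : ∀ᶠ n : ℕ in atTop, η * (n : ℝ) ^ (3 / 2 : ℝ) < (n : ℝ) ^ 2 / 4 := by
    have h1 : Tendsto (fun n : ℕ => (n : ℝ) ^ (1 / 2 : ℝ)) atTop atTop :=
      (tendsto_rpow_atTop (by norm_num : (0 : ℝ) < 1 / 2)).comp tendsto_natCast_atTop_atTop
    filter_upwards [h1.eventually_gt_atTop (4 * η), eventually_ge_atTop 1] with n h2 h3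
    have hn : (0 : ℝ) < n := by
      have : 0 < n := h3
      exact_mod_cast this
    have h4 : (n : ℝ) ^ 2 = (n : ℝ) ^ (3 / 2 : ℝ) * (n : ℝ) ^ (1 / 2 : ℝ) := by
      rw [← Real.rpow_add hn, ← Real.rpow_natCast]
      norm_num
    have h5 : (0 : ℝ) < (n : ℝ) ^ (3 / 2 : ℝ) := by positivity
    rw [h4]
    nlinarith
  filter_upwards [hl.eventually (gt_mem_nhds (show (0 : ℝ) < ε / 2 by positivity)), hsmall,
    eventually_ge_atTop 1] with n h1 h2 h3 N m hN1 hN2 hm
  have hn : (0 : ℝ) < n := by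
    have : 0 < n := h3
    exact_mod_cast this
  have hNpos : (0 : ℝ) < N := by
    have : 0 < (n : ℝ) ^ 2 / 4 := by positivity
    linarith
  have hlt := abs_le.1 hm
  have hm0 : 0 < m := by
    have : (0 : ℝ) < m := by linarith [hlt.1]
    exact_mod_cast this
  have hmN : m < N := by
    have : (m : ℝ) < N := by linarith [hlt.2]
    exact_mod_cast this
  refine le_trans ?_ (choose_lower N m hm0 hmN)
  rw [mul_div_assoc]
  refine mul_le_mul_of_nonneg_left ?_ (by positivity)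
  have h4 : (2 * (m : ℝ) - N) ^ 2 / N ≤ ε / 2 * n := by
    rw [div_le_iff₀ hNpos]
    have h5 : (2 * (m : ℝ) - N) ^ 2 ≤ (η * (n : ℝ) ^ (3 / 2 : ℝ)) ^ 2 := sq_le_sq' (by linarith [hlt.1]) hlt.2
    have h6 : (η * (n : ℝ) ^ (3 / 2 : ℝ)) ^ 2 = η ^ 2 * (n : ℝ) ^ 3 := by
      rw [mul_pow, ← Real.rpow_natCast ((n : ℝ) ^ (3 / 2 : ℝ)) 2, ← Real.rpow_mul hn.le,
        ← Real.rpow_natCast (n : ℝ) 3]
      norm_num
    rw [h6] at h5
    refine h5.trans ?_
    have h7 : ε / 2 * n * ((n : ℝ) ^ 2 / 4) ≤ ε / 2 * n * N := mul_le_mul_of_nonneg_left hN1 (by positivity)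
    refine le_trans ?_ h7
    have h8 : (0 : ℝ) < (n : ℝ) ^ 3 := by positivity
    nlinarith
  have h5 : (N : ℝ) + 1 ≤ Real.exp (ε / 2 * n) := by
    have h6 : Real.log ((n : ℝ) ^ 2 + 1) ≤ ε / 2 * n := by
      rw [div_lt_iff₀ hn] at h1
      exact h1.le
    calc (N : ℝ) + 1 ≤ (n : ℝ) ^ 2 + 1 := by linarith
      _ = Real.exp (Real.log ((n : ℝ) ^ 2 + 1)) := (Real.exp_log (by positivity)).symm
      _ ≤ _ := Real.exp_le_exp.2 h6
  rw [le_div_iff₀ (by positivity)]
  calc Real.exp (-(ε * n)) * ((N : ℝ) + 1) ≤ Real.exp (-(ε * n)) * Real.exp (ε / 2 * n) :=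
        mul_le_mul_of_nonneg_left h5 (Real.exp_pos _).le
    _ = Real.exp (-(ε * n) + ε / 2 * n) := (Real.exp_add _ _).symm
    _ ≤ _ := Real.exp_le_exp.2 (by linarith)

end Vale.Agent.P160.H884
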