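import Mathlib

/-! # P160: the rate `1/2` for other models (helper884), definitions -/

namespace Vale.Agent.P160.H884

/-- The set of all symmetric `n × n` integer matrices with every entry equal to `1` or `-1`. -/
def SymmetricSignMatrices (n : ℕ) : Set (Matrix (Fin n) (Fin n) ℤ) :=
  {A | A.IsSymm ∧ ∀ i j, A i j = 1 ∨ A i j = -1}

/-- The set of all symmetric real `n × n` matrices with every entry equal to `a` or `b`. -/
def TwoPoint (a b : ℝ) (n : ℕ) : Set (Matrix (Fin n) (Fin n) ℝ) :=
  {A | A.IsSymm ∧ ∀ i j, A i j = a ∨ A i j = b}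

/-- The symmetric sign matrices with exactly `m` entries `-1` on and above the diagonal. -/
def Slice (n m : ℕ) : Set (Matrix (Fin n) (Fin n) ℤ) :=
  {A | A ∈ SymmetricSignMatrices n ∧ {p : Fin n × Fin n | p.1 ≤ p.2 ∧ A p.1 p.2 = -1}.ncard = m}

/-- The probability that a uniformly random element of the finite set `S` lies in `E`. -/
noncomputable def pr {α : Type} (S E : Set α) : ℝ := ((S ∩ E).ncard : ℝ) / (S.ncard : ℝ)

/-- The probability that a uniformly random symmetric sign matrix of size `n` is singular. -/
noncomputable def q (n : ℕ) : ℝ := pr (SymmetricSignMatrices n) {A | A.det = 0}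

end Vale.Agent.P160.H884
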