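import Vale.Agent.P160.H884.Basic

/-! # P160 / H884: singularity modulo primes -/

open Finset Filter Topology

namespace Vale.Agent.P160.H884

open Vale.Agent.P160.H462 (Bits signMat bitMat prob Small)

variable {n : ℕ}

theorem two_pow_card_primeFactors (d : ℕ) (hd : d ≠ 0) : 2 ^ d.primeFactors.card ≤ d := by
  calc 2 ^ d.primeFactors.card = ∏ _p ∈ d.primeFactors, 2 := by rw [prod_const]
    _ ≤ ∏ p ∈ d.primeFactors, p := prod_le_prod' fun p hp => (Nat.prime_of_mem_primeFactors hp).two_le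
    _ ≤ d := Nat.le_of_dvd (Nat.pos_of_ne_zero hd) (Nat.prod_primeFactors_dvd d)

theorem det_sign_le (b : Bits n) : (signMat b).det.natAbs ≤ n ^ n := by
  have h := Matrix.det_le (A := signMat b) (abv := AbsoluteValue.abs) (x := (1 : ℤ)) (fun i j => by
    show |(if b s(i, j) then (-1 : ℤ) else 1)| ≤ 1
    split_ifs <;> simp)
  rw [one_pow, Fintype.card_fin, nsmul_eq_mul, mul_one, AbsoluteValue.abs_apply] at h
  have h2 : (signMat b).det.natAbs ≤ n.factorial := by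
    have : ((signMat b).det.natAbs : ℤ) ≤ n.factorial := by
      rw [Int.natCast_natAbs]
      exact h
    exact_mod_cast this
  exact h2.trans (Nat.factorial_le_pow n)

theorem card_primes_le (b : Bits n) (hb : (signMat b).det ≠ 0) (F : Finset ℕ) (hF : ∀ p ∈ F, p.Prime) :
    (F.filter fun p : ℕ => ((p : ℤ) ∣ (signMat b).det)).card ≤ n ^ 2 := by
  have h1 : (F.filter fun p : ℕ => ((p : ℤ) ∣ (signMat b).det)) ⊆ (signMat b).det.natAbs.primeFactors := by
    intro p hp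
    obtain ⟨h1, h2⟩ := mem_filter.1 hp
    exact Nat.mem_primeFactors.2 ⟨hF p h1, Int.natCast_dvd.1 h2, Int.natAbs_ne_zero.2 hb⟩
  refine (card_le_card h1).trans ?_
  have h2 := (two_pow_card_primeFactors _ (Int.natAbs_ne_zero.2 hb)).trans (det_sign_le b)
  have h3 : n ^ n ≤ 2 ^ (n ^ 2) := by
    calc n ^ n ≤ (2 ^ n) ^ n := Nat.pow_le_pow_left (Nat.lt_two_pow_self).le n
      _ = 2 ^ (n ^ 2) := by rw [← pow_mul, sq]
  exact (Nat.pow_le_pow_iff_right (by norm_num)).1 (h2.trans h3)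

theorem sum_primes_le (F : Finset ℕ) (hF : ∀ p ∈ F, p.Prime) :
    ∑ p ∈ F, prob (0 : Sym2 (Fin n) → ℝ) {b | (p : ℤ) ∣ (signMat b).det} ≤
      F.card * prob (0 : Sym2 (Fin n) → ℝ) {b | (signMat b).det = 0} + n ^ 2 := by
  classical
  set N := Fintype.card (Sym2 (Fin n)) with hN
  have h2N : (0 : ℝ) < 2 ^ N := by positivity
  have h1 : ∀ p ∈ F, (univ.filter fun b : Bits n => b ∈ {b | (p : ℤ) ∣ (signMat b).det}).card ≤
      (univ.filter fun b : Bits n => b ∈ {b | (signMat b).det = 0}).card +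
      ∑ b : Bits n, if (signMat b).det ≠ 0 ∧ (p : ℤ) ∣ (signMat b).det then 1 else 0 := by
    intro p _
    rw [← sum_filter, ← card_eq_sum_ones]
    refine (card_le_card ?_).trans (card_union_le _ _)
    intro b hb
    have hb' : (p : ℤ) ∣ (signMat b).det := (mem_filter.1 hb).2
    by_cases h0 : (signMat b).det = 0
    · exact mem_union_left _ (mem_filter.2 ⟨mem_univ _, h0⟩)
    · exact mem_union_right _ (mem_filter.2 ⟨mem_univ _, h0, hb'⟩)
  have h2 : ∑ p ∈ F, ∑ b : Bits n, (if (signMat b).det ≠ 0 ∧ (p : ℤ) ∣ (signMat b).det then 1 else 0) ≤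
      2 ^ N * n ^ 2 := by
    rw [sum_comm]
    have h3 : ∀ b ∈ (univ : Finset (Bits n)),
        ∑ p ∈ F, (if (signMat b).det ≠ 0 ∧ (p : ℤ) ∣ (signMat b).det then 1 else 0) ≤ n ^ 2 := by
      intro b _
      by_cases h0 : (signMat b).det = 0
      · simp [h0]
      · rw [← sum_filter, ← card_eq_sum_ones]
        refine le_trans (le_of_eq ?_) (card_primes_le b h0 F hF)
        congr 1
        ext p
        simp [h0]
    refine (sum_le_sum h3).trans ?_
    rw [sum_const, card_univ, Fintype.card_fun, Fintype.card_bool, smul_eq_mul]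
  have h4 : ∑ p ∈ F, (univ.filter fun b : Bits n => b ∈ {b | (p : ℤ) ∣ (signMat b).det}).card ≤
      F.card * (univ.filter fun b : Bits n => b ∈ {b | (signMat b).det = 0}).card + 2 ^ N * n ^ 2 := by
    refine (sum_le_sum h1).trans ?_
    rw [sum_add_distrib, sum_const, smul_eq_mul]
    exact Nat.add_le_add_left h2 _
  have h5 : (∑ p ∈ F, ((univ.filter fun b : Bits n => b ∈ {b | (p : ℤ) ∣ (signMat b).det}).card : ℝ)) ≤
      F.card * ((univ.filter fun b : Bits n => b ∈ {b | (signMat b).det = 0}).card : ℝ) + 2 ^ N * n ^ 2 := by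
    exact_mod_cast h4
  rw [H462.prob_zero, ← hN]
  calc ∑ p ∈ F, prob (0 : Sym2 (Fin n) → ℝ) {b | (p : ℤ) ∣ (signMat b).det}
      = (∑ p ∈ F, ((univ.filter fun b : Bits n => b ∈ {b | (p : ℤ) ∣ (signMat b).det}).card : ℝ)) / 2 ^ N := by
        rw [sum_div]
        exact sum_congr rfl fun p _ => by rw [H462.prob_zero]
    _ ≤ (F.card * ((univ.filter fun b : Bits n => b ∈ {b | (signMat b).det = 0}).card : ℝ) + 2 ^ N * n ^ 2) / 2 ^ N :=
        div_le_div_of_nonneg_right h5 h2N.le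
    _ = _ := by
        field_simp

theorem primes (hs : Small fun n => {b : Bits n | (signMat b).det = 0}) (κ : ℝ) (h1 : κ < 1) :
    ∀ᶠ n : ℕ in atTop,
      {p : ℕ | p.Prime ∧ (2 : ℝ) ^ (-(κ * n)) ≤ pr (SymmetricSignMatrices n) {A | (p : ℤ) ∣ A.det}}.Finite ∧
      ({p : ℕ | p.Prime ∧ (2 : ℝ) ^ (-(κ * n)) ≤
        pr (SymmetricSignMatrices n) {A | (p : ℤ) ∣ A.det}}.ncard : ℝ) ≤ 2 * n ^ 2 * (2 : ℝ) ^ (κ * n) := by
  have hl := H462.log2_pos
  have hε : 0 < (1 - κ) * Real.log 2 / 2 := by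
    have : 0 < 1 - κ := by linarith
    positivity
  filter_upwards [hs _ hε, H462.tendsto_cast_atTop _ hε (Real.log 2)] with n hn hn2
  have e1 : (2 : ℝ) ^ (-(κ * n)) = Real.exp (-(κ * n) * Real.log 2) := by
    rw [Real.rpow_def_of_pos (by norm_num), mul_comm]
  have e2 : (2 : ℝ) ^ (κ * n) = Real.exp (κ * n * Real.log 2) := by
    rw [Real.rpow_def_of_pos (by norm_num), mul_comm]
  have hq : prob (0 : Sym2 (Fin n) → ℝ) {b | (signMat b).det = 0} ≤ (2 : ℝ) ^ (-(κ * n)) / 2 := by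
    refine hn.trans ?_
    have e3 : (2 : ℝ) ^ (-(κ * n)) / 2 = Real.exp (-(κ * n) * Real.log 2 - Real.log 2) := by
      rw [e1, Real.exp_sub, Real.exp_log (by norm_num)]
    rw [e3]
    refine Real.exp_le_exp.2 ?_
    nlinarith
  set S : Set ℕ := {p : ℕ | p.Prime ∧ (2 : ℝ) ^ (-(κ * n)) ≤
    pr (SymmetricSignMatrices n) {A | (p : ℤ) ∣ A.det}} with hS
  have key : ∀ F : Finset ℕ, (F : Set ℕ) ⊆ S → (F.card : ℝ) ≤ 2 * n ^ 2 * (2 : ℝ) ^ (κ * n) := by
    intro F hF
    have h2 : (F.card : ℝ) * (2 : ℝ) ^ (-(κ * n)) ≤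
        ∑ p ∈ F, prob (0 : Sym2 (Fin n) → ℝ) {b | (p : ℤ) ∣ (signMat b).det} := by
      rw [← nsmul_eq_mul, ← sum_const]
      refine sum_le_sum fun p hp => ?_
      have h3 := (hF hp).2
      rw [pr_sign] at h3
      exact h3
    have h3 := h2.trans (sum_primes_le F fun p hp => (hF hp).1)
    have h4 : (F.card : ℝ) * prob (0 : Sym2 (Fin n) → ℝ) {b | (signMat b).det = 0} ≤
        F.card * ((2 : ℝ) ^ (-(κ * n)) / 2) := mul_le_mul_of_nonneg_left hq (Nat.cast_nonneg _)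
    have h5 : (F.card : ℝ) * (2 : ℝ) ^ (-(κ * n)) ≤ 2 * n ^ 2 := by linarith
    have h6 : (2 : ℝ) ^ (-(κ * n)) * (2 : ℝ) ^ (κ * n) = 1 := by
      rw [← Real.rpow_add (by norm_num)]
      simp
    calc (F.card : ℝ) = F.card * (2 : ℝ) ^ (-(κ * n)) * (2 : ℝ) ^ (κ * n) := by rw [mul_assoc, h6, mul_one]
      _ ≤ _ := mul_le_mul_of_nonneg_right h5 (by positivity)
  have hfin : S.Finite := by
    by_contra hinf
    obtain ⟨k, hk⟩ := exists_nat_gt (2 * (n : ℝ) ^ 2 * (2 : ℝ) ^ (κ * n))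
    obtain ⟨F, hF, hFk⟩ := Set.Infinite.exists_subset_card_eq hinf k
    have h2 := key F hF
    rw [hFk] at h2
    linarith
  refine ⟨hfin, ?_⟩
  have h2 := key hfin.toFinset (by simp)
  rwa [← Set.ncard_eq_toFinset_card S hfin] at h2

end Vale.Agent.P160.H884
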