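import Vale.Agent.P160.H884.Basic

/-! # P160 / H884: the lower bound `(1 - o(1)) n² 2⁻ⁿ` -/

open Finset Filter Topology

namespace Vale.Agent.P160.H884

open Vale.Agent.P160.H462 (Bits signMat bitMat prob Small EqRows)

variable {n : ℕ}

/-- row `i` equals row `j` (`s = false`) or the opposite of row `j` (`s = true`) -/
def Rel (s : Bool) (i j : Fin n) : Set (Bits n) := {b | ∀ k, b s(i, k) = (s ^^ b s(j, k))}

theorem Rel.symm {s : Bool} {i j : Fin n} {b : Bits n} (h : b ∈ Rel s i j) : b ∈ Rel s j i := by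
  intro k
  have := h k
  rw [this]
  cases s <;> simp

theorem det_of_rel {s : Bool} {i j : Fin n} (hij : i ≠ j) {b : Bits n} (h : b ∈ Rel s i j) :
    (signMat b).det = 0 := by
  classical
  cases s with
  | false =>
    exact H462.det_of_eqRows_sign hij fun k => by simpa using h k
  | true =>
    refine Matrix.exists_vecMul_eq_zero_iff.1 ⟨Pi.single i 1 + Pi.single j 1, ?_, ?_⟩
    · intro h0
      have := congrFun h0 i
      simp [hij] at this
    · rw [Matrix.add_vecMul, Matrix.single_one_vecMul, Matrix.single_one_vecMul]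
      funext k
      show (if b s(i, k) then (-1 : ℤ) else 1) + (if b s(j, k) then (-1 : ℤ) else 1) = 0
      rw [h k]
      cases b s(j, k) <;> simp

/-- changing the sign of row and column `j` -/
def gauge (j : Fin n) (b : Bits n) : Bits n := fun e => if j ∈ e ∧ ¬ e.IsDiag then !(b e) else b e

theorem gauge_gauge (j : Fin n) (b : Bits n) : gauge j (gauge j b) = b := by
  funext e
  unfold gauge
  by_cases h : j ∈ e ∧ ¬ e.IsDiag <;> simp [h]

theorem gauge_rel {i j : Fin n} (hij : i ≠ j) {b : Bits n} (h : b ∈ Rel false i j) : gauge j b ∈ Rel true i j := by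
  intro k
  have h1 := h k
  have hji : j ≠ i := hij.symm
  by_cases hk : k = j
  · subst hk
    simp only [gauge]
    simpa [hij, hji] using h1
  · have hk' : j ≠ k := fun h => hk h.symm
    simp only [gauge]
    simp only [Bool.false_bne] at h1
    simp [hji, hk', h1]

theorem card_rel (s : Bool) (i j : Fin n) (hij : i ≠ j) [DecidablePred (· ∈ Rel s i j)] :
    (2 : ℝ) ^ Fintype.card (Sym2 (Fin n)) / 2 ^ n ≤ ((univ.filter fun b : Bits n => b ∈ Rel s i j).card : ℝ) := by
  classical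
  have h0 : (2 : ℝ) ^ Fintype.card (Sym2 (Fin n)) / 2 ^ n ≤
      ((univ.filter fun b : Bits n => b ∈ Rel false i j).card : ℝ) := by
    have h1 := H462.prob_eqRows i j hij
    rw [H462.prob_zero, le_div_iff₀ (by positivity)] at h1
    have h2 : (univ.filter fun b : Bits n => b ∈ EqRows i j) = univ.filter fun b : Bits n => b ∈ Rel false i j := by
      refine filter_congr fun b _ => ?_
      exact forall_congr' fun k => by simp
    rw [h2] at h1
    refine le_trans (le_of_eq ?_) h1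
    rw [one_div, inv_pow]
    field_simp
  cases s with
  | false => convert h0
  | true =>
    refine h0.trans ?_
    have h1 : (univ.filter fun b : Bits n => b ∈ Rel false i j).card ≤
        (univ.filter fun b : Bits n => b ∈ Rel true i j).card := by
      refine card_le_card_of_injOn (gauge j) (fun b hb => ?_) fun b _ b' _ h => ?_
      · exact mem_coe.2 (mem_filter.2 ⟨mem_univ _, gauge_rel hij (mem_filter.1 (mem_coe.1 hb)).2⟩)
      · rw [← gauge_gauge j b, h, gauge_gauge]
    have h2 : ((univ.filter fun b : Bits n => b ∈ Rel false i j).card : ℝ) ≤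
        ((univ.filter fun b : Bits n => b ∈ Rel true i j).card : ℝ) := by exact_mod_cast h1
    convert h2

theorem card_two_rows (a b : Fin n) (hab : a ≠ b) :
    Fintype.card {e : Sym2 (Fin n) // ¬ (a ∈ e ∨ b ∈ e)} + (2 * n - 1) ≤ Fintype.card (Sym2 (Fin n)) := by
  classical
  have h1 : Fintype.card {e : Sym2 (Fin n) // ¬ (a ∈ e ∨ b ∈ e)} + Fintype.card {e : Sym2 (Fin n) // (a ∈ e ∨ b ∈ e)} =
      Fintype.card (Sym2 (Fin n)) := by
    rw [Fintype.card_subtype_compl]
    have := Fintype.card_subtype_le (fun e : Sym2 (Fin n) => a ∈ e ∨ b ∈ e)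
    omega
  have h2 : 2 * n - 1 ≤ Fintype.card {e : Sym2 (Fin n) // (a ∈ e ∨ b ∈ e)} := by
    rw [Fintype.card_subtype]
    have h3 : ((univ : Finset (Fin n)).image fun k => s(a, k)) ∪ ((univ.erase a).image fun k => s(b, k)) ⊆
        univ.filter fun e : Sym2 (Fin n) => a ∈ e ∨ b ∈ e := by
      intro e he
      rcases mem_union.1 he with h | h
      · obtain ⟨k, -, rfl⟩ := mem_image.1 h
        exact mem_filter.2 ⟨mem_univ _, Or.inl (Sym2.mem_mk_left a k)⟩
      · obtain ⟨k, -, rfl⟩ := mem_image.1 h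
        exact mem_filter.2 ⟨mem_univ _, Or.inr (Sym2.mem_mk_left b k)⟩
    refine le_trans ?_ (card_le_card h3)
    rw [card_union_of_disjoint]
    · rw [card_image_of_injective _ (fun x y h => Sym2.congr_right.1 h),
        card_image_of_injective _ (fun x y h => Sym2.congr_right.1 h), card_erase_of_mem (mem_univ _), card_univ,
        Fintype.card_fin]
      omega
    · rw [disjoint_left]
      intro e he he'
      obtain ⟨k, -, rfl⟩ := mem_image.1 he
      obtain ⟨l, hl, hkl⟩ := mem_image.1 he'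
      have hl' : l ≠ a := (mem_erase.1 hl).1
      have h4 : s(b, l) = s(a, k) := hkl
      rw [Sym2.eq_iff] at h4
      rcases h4 with ⟨h5, -⟩ | ⟨-, h5⟩
      · exact hab h5.symm
      · exact hl' h5
  omega

/-- the joint event is small -/
theorem card_joint (s t : Bool) (a a' b b' : Fin n) (h1 : a ≠ a') (h2 : b ≠ b') (h3 : a ≠ b) (h4 : a ≠ b') (h5 : a' ≠ b)
    [DecidablePred (· ∈ Rel s a a' ∩ Rel t b b')] :
    (univ.filter fun x : Bits n => x ∈ Rel s a a' ∩ Rel t b b').card * 2 ^ (2 * n - 1) ≤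
      2 ^ Fintype.card (Sym2 (Fin n)) := by
  classical
  have h6 : (univ.filter fun x : Bits n => x ∈ Rel s a a' ∩ Rel t b b').card ≤
      (univ : Finset ({e : Sym2 (Fin n) // ¬ (a ∈ e ∨ b ∈ e)} → Bool)).card := by
    refine card_le_card_of_injOn (fun x => fun e => x e) (fun x _ => mem_coe.2 (mem_univ _)) fun x hx y hy hxy => ?_
    obtain ⟨hx1, hx2⟩ := (mem_filter.1 (mem_coe.1 hx)).2
    obtain ⟨hy1, hy2⟩ := (mem_filter.1 (mem_coe.1 hy)).2
    have k0 : ∀ c d : Fin n, c ≠ a → c ≠ b → d ≠ a → d ≠ b → x s(c, d) = y s(c, d) := by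
      intro c d hca hcb hda hdb
      have hmem : ¬ (a ∈ s(c, d) ∨ b ∈ s(c, d)) := by
        rw [Sym2.mem_iff, Sym2.mem_iff]
        rintro ((h | h) | (h | h))
        · exact hca h.symm
        · exact hda h.symm
        · exact hcb h.symm
        · exact hdb h.symm
      exact congrFun hxy ⟨s(c, d), hmem⟩
    have ka : ∀ d : Fin n, d ≠ a → d ≠ b → x s(a, d) = y s(a, d) := by
      intro d hda hdb
      rw [hx1 d, hy1 d, k0 a' d h1.symm h5 hda hdb]
    have kb : ∀ d : Fin n, d ≠ a → d ≠ b → x s(b, d) = y s(b, d) := by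
      intro d hda hdb
      rw [hx2 d, hy2 d, k0 b' d h4.symm h2.symm hda hdb]
    have kaa : x s(a, a) = y s(a, a) := by
      rw [hx1 a, hy1 a, Sym2.eq_swap, ka a' h1.symm h5]
    have kbb : x s(b, b) = y s(b, b) := by
      rw [hx2 b, hy2 b, Sym2.eq_swap, kb b' h4.symm h2.symm]
    have kab : x s(a, b) = y s(a, b) := by
      rw [hx1 b, hy1 b, Sym2.eq_swap, kb a' h1.symm h5]
    funext e
    induction e using Sym2.ind with
    | _ c d =>
      by_cases hca : c = a
      · subst hca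
        by_cases hdc : d = c
        · subst hdc; exact kaa
        · by_cases hdb : d = b
          · subst hdb; exact kab
          · exact ka d hdc hdb
      · by_cases hcb : c = b
        · subst hcb
          by_cases hda : d = a
          · subst hda; rw [Sym2.eq_swap]; exact kab
          · by_cases hdc : d = c
            · subst hdc; exact kbb
            · exact kb d hda hdc
        · by_cases hda : d = a
          · subst hda; rw [Sym2.eq_swap]; exact ka c hca hcb
          · by_cases hdb : d = b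
            · subst hdb; rw [Sym2.eq_swap]; exact kb c hca hcb
            · exact k0 c d hca hcb hda hdb
  rw [card_univ, Fintype.card_fun, Fintype.card_bool] at h6
  calc _ ≤ 2 ^ Fintype.card {e : Sym2 (Fin n) // ¬ (a ∈ e ∨ b ∈ e)} * 2 ^ (2 * n - 1) := Nat.mul_le_mul_right _ h6
    _ = 2 ^ (Fintype.card {e : Sym2 (Fin n) // ¬ (a ∈ e ∨ b ∈ e)} + (2 * n - 1)) := (pow_add _ _ _).symm
    _ ≤ _ := Nat.pow_le_pow_right (by norm_num) (card_two_rows a b h3)

/-- the event of the ordered pair `(i, j)` -/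
def Ev (z : Fin n × Fin n) : Set (Bits n) := Rel (decide (z.2 < z.1)) z.1 z.2

theorem card_ev_inter (z w : Fin n × Fin n) (hz : z.1 ≠ z.2) (hw : w.1 ≠ w.2) (hzw : z ≠ w)
    [DecidablePred (· ∈ Ev z ∩ Ev w)] :
    (univ.filter fun x : Bits n => x ∈ Ev z ∩ Ev w).card * 2 ^ (2 * n - 1) ≤ 2 ^ Fintype.card (Sym2 (Fin n)) := by
  classical
  obtain ⟨i, j⟩ := z
  obtain ⟨k, l⟩ := w
  simp only at hz hw
  have key : ∀ (s t : Bool) (a a' b b' : Fin n), a ≠ a' → b ≠ b' → a ≠ b → a ≠ b' → a' ≠ b →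
      (∀ x : Bits n, x ∈ Ev (i, j) ∩ Ev (k, l) → x ∈ Rel s a a' ∩ Rel t b b') →
      (univ.filter fun x : Bits n => x ∈ Ev (i, j) ∩ Ev (k, l)).card * 2 ^ (2 * n - 1) ≤
        2 ^ Fintype.card (Sym2 (Fin n)) := by
    intro s t a a' b b' h1 h2 h3 h4 h5 h
    refine le_trans (Nat.mul_le_mul_right _ (card_le_card fun x hx => ?_)) (card_joint s t a a' b b' h1 h2 h3 h4 h5)
    exact mem_filter.2 ⟨mem_univ _, h x (mem_filter.1 hx).2⟩
  by_cases hik : i = k
  · -- `j ∉ {k, l}`
    have hjl : j ≠ l := by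
      rintro rfl
      exact hzw (by rw [hik])
    have hjk : j ≠ k := by rw [← hik]; exact hz.symm
    -- remove `j` and `l`
    refine key _ _ j i l k hz.symm hw.symm hjl hjk ?_ fun x hx => ⟨Rel.symm hx.1, Rel.symm hx.2⟩
    rw [hik]; exact hw
  · by_cases hil : i = l
    · by_cases hjk : j = k
      · -- opposite events
        subst hil
        subst hjk
        have h0 : (univ.filter fun x : Bits n => x ∈ Ev (i, j) ∩ Ev (j, i)) = ∅ := by
          rw [filter_eq_empty_iff]
          intro x _ hx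
          have h1 := hx.1 i
          have h2 := Rel.symm hx.2 i
          rw [h1] at h2
          rcases lt_or_gt_of_ne hz with h3 | h3
          · have e1 : decide (j < i) = false := decide_eq_false (not_lt.2 h3.le)
            have e2 : decide (i < j) = true := decide_eq_true h3
            simp only [e1, e2] at h2
            cases hh : x s(j, i) <;> simp [hh] at h2
          · have e1 : decide (j < i) = true := decide_eq_true h3
            have e2 : decide (i < j) = false := decide_eq_false (not_lt.2 h3.le)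
            simp only [e1, e2] at h2
            cases hh : x s(j, i) <;> simp [hh] at h2
        rw [h0, card_empty, zero_mul]
        exact Nat.zero_le _
      · -- `i = l`, `j ∉ {k, l}`: remove `j` and `k`
        refine key _ _ j i k l hz.symm hw hjk (by rw [← hil]; exact hz.symm) hik fun x hx => ⟨Rel.symm hx.1, hx.2⟩
    · -- `i ∉ {k, l}`
      by_cases hlj : l = j
      · -- remove `i` and `k`
        refine key _ _ i j k l hz hw hik hil ?_ fun x hx => hx
        rw [← hlj]; exact hw.symm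
      · -- remove `i` and `l`
        exact key _ _ i j l k hz hw.symm hil hik (fun h => hlj h.symm) fun x hx => ⟨hx.1, Rel.symm hx.2⟩

theorem q_lower (n : ℕ) (hn : 1 ≤ n) :
    (n : ℝ) * (n - 1) / 2 ^ n - ((n : ℝ) * (n - 1)) ^ 2 * 2 / 2 ^ (2 * n) ≤
      prob (0 : Sym2 (Fin n) → ℝ) {b | (signMat b).det = 0} := by
  classical
  set N := Fintype.card (Sym2 (Fin n)) with hN
  have h2N : (0 : ℝ) < 2 ^ N := by positivity
  set X : Finset (Fin n × Fin n) := (univ : Finset (Fin n)).offDiag with hX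
  have hXc : (X.card : ℝ) = n * (n - 1) := by
    rw [hX, offDiag_card, card_univ, Fintype.card_fin, Nat.cast_sub (Nat.le_mul_self n)]
    push_cast
    ring
  have hmem : ∀ z ∈ X, z.1 ≠ z.2 := fun z hz => (mem_offDiag.1 hz).2.2
  -- pointwise inequality
  have h1 : ∀ b : Bits n, 2 * (∑ z ∈ X, if b ∈ Ev z then (1 : ℝ) else 0) -
      (∑ z ∈ X, ∑ w ∈ X, if b ∈ Ev z ∩ Ev w then (1 : ℝ) else 0) ≤ if (signMat b).det = 0 then 1 else 0 := by
    intro b
    have h2 : (∑ z ∈ X, ∑ w ∈ X, if b ∈ Ev z ∩ Ev w then (1 : ℝ) else 0) =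
        (∑ z ∈ X, if b ∈ Ev z then (1 : ℝ) else 0) ^ 2 := by
      rw [sq, sum_mul_sum]
      refine sum_congr rfl fun z _ => sum_congr rfl fun w _ => ?_
      by_cases hz : b ∈ Ev z <;> by_cases hw : b ∈ Ev w <;> simp [hz, hw]
    rw [h2]
    by_cases h3 : ∃ z ∈ X, b ∈ Ev z
    · obtain ⟨z, hz, hb⟩ := h3
      rw [if_pos (det_of_rel (hmem z hz) hb)]
      nlinarith [sq_nonneg ((∑ z ∈ X, if b ∈ Ev z then (1 : ℝ) else 0) - 1)]
    · push Not at h3
      have h4 : (∑ z ∈ X, if b ∈ Ev z then (1 : ℝ) else 0) = 0 :=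
        sum_eq_zero fun z hz => if_neg (h3 z hz)
      rw [h4]
      split_ifs <;> norm_num
  have h2 := sum_le_sum fun b (_ : b ∈ (univ : Finset (Bits n))) => h1 b
  rw [sum_sub_distrib, ← mul_sum] at h2
  have h3 : ∀ z, (∑ b : Bits n, if b ∈ Ev z then (1 : ℝ) else 0) = ((univ.filter fun b : Bits n => b ∈ Ev z).card : ℝ) := by
    intro z
    rw [← sum_filter, sum_const, nsmul_eq_mul, mul_one]
  have h4 : ∑ b : Bits n, (if (signMat b).det = 0 then (1 : ℝ) else 0) =
      ((univ.filter fun b : Bits n => b ∈ {b | (signMat b).det = 0}).card : ℝ) := by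
    rw [← sum_filter, sum_const, nsmul_eq_mul, mul_one]
    rfl
  have h5 : (∑ z ∈ X, ∑ b : Bits n, ∑ w ∈ X, if b ∈ Ev z ∩ Ev w then (1 : ℝ) else 0) ≤
      (∑ z ∈ X, ((univ.filter fun b : Bits n => b ∈ Ev z).card : ℝ)) + X.card ^ 2 * (2 ^ N * 2 / 2 ^ (2 * n)) := by
    have h6 : ∀ z ∈ X, (∑ b : Bits n, ∑ w ∈ X, if b ∈ Ev z ∩ Ev w then (1 : ℝ) else 0) ≤
        ((univ.filter fun b : Bits n => b ∈ Ev z).card : ℝ) + X.card * (2 ^ N * 2 / 2 ^ (2 * n)) := by
      intro z hz
      rw [sum_comm]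
      have h7 : ∀ w, (∑ b : Bits n, if b ∈ Ev z ∩ Ev w then (1 : ℝ) else 0) =
          ((univ.filter fun b : Bits n => b ∈ Ev z ∩ Ev w).card : ℝ) := by
        intro w
        rw [← sum_filter, sum_const, nsmul_eq_mul, mul_one]
      simp only [h7]
      rw [← add_sum_erase X _ hz]
      have h0 : (univ.filter fun b : Bits n => b ∈ Ev z ∩ Ev z) = univ.filter fun b : Bits n => b ∈ Ev z :=
        filter_congr fun b _ => by simp
      rw [h0]
      refine add_le_add le_rfl ?_
      have h8 : ∀ w ∈ X.erase z, ((univ.filter fun b : Bits n => b ∈ Ev z ∩ Ev w).card : ℝ) ≤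
          2 ^ N * 2 / 2 ^ (2 * n) := by
        intro w hw
        obtain ⟨hwz, hwX⟩ := mem_erase.1 hw
        have h9 := card_ev_inter z w (hmem z hz) (hmem w hwX) (fun h => hwz h.symm)
        have h10 : (2 : ℝ) ^ (2 * n) = 2 ^ (2 * n - 1) * 2 := by
          rw [← pow_succ]
          congr 1
          omega
        rw [h10, mul_div_mul_right _ _ (by norm_num), le_div_iff₀ (by positivity)]
        exact_mod_cast h9
      refine (sum_le_sum h8).trans ?_
      rw [sum_const, nsmul_eq_mul]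
      refine mul_le_mul_of_nonneg_right ?_ (by positivity)
      exact_mod_cast card_erase_le
    refine (sum_le_sum h6).trans (le_of_eq ?_)
    rw [sum_add_distrib, sum_const, nsmul_eq_mul]
    ring
  have h6 : X.card * ((2 : ℝ) ^ N / 2 ^ n) ≤ ∑ z ∈ X, ((univ.filter fun b : Bits n => b ∈ Ev z).card : ℝ) := by
    rw [← nsmul_eq_mul, ← sum_const]
    exact sum_le_sum fun z hz => card_rel _ _ _ (hmem z hz)
  have e1 : (∑ b : Bits n, ∑ z ∈ X, if b ∈ Ev z then (1 : ℝ) else 0) =
      ∑ z ∈ X, ((univ.filter fun b : Bits n => b ∈ Ev z).card : ℝ) := by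
    rw [sum_comm]
    exact sum_congr rfl fun z _ => h3 z
  have e2 : (∑ b : Bits n, ∑ z ∈ X, ∑ w ∈ X, if b ∈ Ev z ∩ Ev w then (1 : ℝ) else 0) =
      ∑ z ∈ X, ∑ b : Bits n, ∑ w ∈ X, if b ∈ Ev z ∩ Ev w then (1 : ℝ) else 0 := sum_comm
  rw [e1, e2, h4] at h2
  rw [H462.prob_zero, le_div_iff₀ h2N, ← hXc]
  have h7 : ((X.card : ℝ) / 2 ^ n - (X.card : ℝ) ^ 2 * 2 / 2 ^ (2 * n)) * 2 ^ N =
      X.card * ((2 : ℝ) ^ N / 2 ^ n) - X.card ^ 2 * (2 ^ N * 2 / 2 ^ (2 * n)) := by ring
  rw [h7]
  linarith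

theorem q_lower_asymp (ε : ℝ) (hε : 0 < ε) : ∀ᶠ n : ℕ in atTop, (1 - ε) * (n : ℝ) ^ 2 * (1 / 2) ^ n ≤
    prob (0 : Sym2 (Fin n) → ℝ) {b | (signMat b).det = 0} := by
  have h1 : Tendsto (fun n : ℕ => (n : ℝ) ^ 2 * (1 / 2) ^ n) atTop (𝓝 0) :=
    tendsto_pow_const_mul_const_pow_of_lt_one 2 (by norm_num) (by norm_num)
  filter_upwards [h1.eventually (gt_mem_nhds (show (0 : ℝ) < ε / 4 by positivity)), eventually_ge_atTop 1,
    H462.tendsto_cast_atTop (ε / 2) (by positivity) 1] with n h2 hn h3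
  refine le_trans ?_ (q_lower n hn)
  have hn1 : (1 : ℝ) ≤ n := by exact_mod_cast hn
  have e1 : (2 : ℝ) ^ (2 * n) = 2 ^ n * 2 ^ n := by rw [two_mul, pow_add]
  have h2n : (0 : ℝ) < 2 ^ n := by positivity
  have e2 : (1 / 2 : ℝ) ^ n = 1 / 2 ^ n := by rw [div_pow, one_pow]
  rw [e2] at h2 ⊢
  rw [e1]
  have h4 : (n : ℝ) * (n - 1) / 2 ^ n - ((n : ℝ) * (n - 1)) ^ 2 * 2 / (2 ^ n * 2 ^ n) =
      ((n : ℝ) * (n - 1) - 2 * ((n : ℝ) - 1) ^ 2 * ((n : ℝ) ^ 2 * (1 / 2 ^ n))) / 2 ^ n := by
    field_simp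
  rw [h4, mul_one_div]
  refine div_le_div_of_nonneg_right ?_ h2n.le
  have h5 : 0 ≤ ((n : ℝ) - 1) ^ 2 := sq_nonneg _
  have h6 : ((n : ℝ) - 1) ^ 2 ≤ (n : ℝ) ^ 2 := by nlinarith
  have h7 : 2 * ((n : ℝ) - 1) ^ 2 * ((n : ℝ) ^ 2 * (1 / 2 ^ n)) ≤ 2 * (n : ℝ) ^ 2 * (ε / 4) := by
    refine mul_le_mul (by linarith) h2.le (by positivity) (by positivity)
  nlinarith

end Vale.Agent.P160.H884
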