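import Vale.Agent.P160.H884.Slice
import Vale.Agent.P160.H884.Primes
import Vale.Agent.P160.H884.Twins
import Vale.Agent.P160.H462.SmallBoth

/-! # P160 / H884: assembly -/

open Finset Filter Topology

namespace Vale.Agent.P160.H884

open Vale.Agent.P160.H462 (Bits signMat bitMat prob Small)

theorem q_eq_prob (n : ℕ) : q n = prob (0 : Sym2 (Fin n) → ℝ) {b | (signMat b).det = 0} := by
  rw [q, pr_sign]
  rfl

theorem q_eq_end (n : ℕ) : q n = Half.End288.q n := by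
  rw [q_eq_prob, H462.q_eq_prob]

theorem main :
    (Tendsto (fun n : ℕ => q n ^ (1 / (n : ℝ))) atTop (nhds (1 / 2)) ∧
      (∀ c : ℝ, 1 / 2 < c → ∀ᶠ n : ℕ in atTop, q n ≤ c ^ n) ∧
      (∀ ε : ℝ, 0 < ε → ∀ᶠ n : ℕ in atTop, (1 - ε) * (n : ℝ) ^ 2 * (1 / 2) ^ n ≤ q n)) ∧
    (∀ a b : ℝ, a ≠ b → (a = 0 ∨ b = 0 ∨ a = -b ∨ Irrational (a / b)) →
      Tendsto (fun n : ℕ => pr (TwoPoint a b n) {A | A.det = 0} ^ (1 / (n : ℝ))) atTop (nhds (1 / 2))) ∧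
    (∀ m : ℕ → ℕ,
      Tendsto (fun n : ℕ => ((m n : ℝ) - (n : ℝ) ^ 2 / 4) / (n : ℝ) ^ (3 / 2 : ℝ)) atTop (nhds 0) →
      Tendsto (fun n : ℕ => pr (Slice n (m n)) {A | A.det = 0} ^ (1 / (n : ℝ))) atTop (nhds (1 / 2))) ∧
    (∀ κ : ℝ, κ < 1 → ∀ᶠ n : ℕ in atTop,
      {p : ℕ | p.Prime ∧ (2 : ℝ) ^ (-(κ * n)) ≤
        pr (SymmetricSignMatrices n) {A | (p : ℤ) ∣ A.det}}.Finite ∧
      ({p : ℕ | p.Prime ∧ (2 : ℝ) ^ (-(κ * n)) ≤
        pr (SymmetricSignMatrices n) {A | (p : ℤ) ∣ A.det}}.ncard : ℝ) ≤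
        2 * n ^ 2 * (2 : ℝ) ^ (κ * n)) := by
  refine ⟨⟨?_, ?_, ?_⟩, fun a b hab h => alphabet H462.small_sign H462.small_bit a b hab h,
    fun m hm => slice_main H462.small_sign m hm, fun κ hκ => primes H462.small_sign κ hκ⟩
  · simp only [q_eq_end]
    exact Half.Zero685.main.1
  · simp only [q_eq_end]
    exact Half.Zero685.main.2
  · intro ε hε
    filter_upwards [q_lower_asymp ε hε] with n hn
    rw [q_eq_prob]
    exact hn

end Vale.Agent.P160.H884
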