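import Vale.Agent.P160.H884.Alpha
import Vale.Agent.P160.H884.Binom

/-! # P160 / H884: a fixed number of entries `-1` -/

open Finset Filter Topology

namespace Vale.Agent.P160.H884

open Vale.Agent.P160.H462 (Bits signMat bitMat prob Small EqRows)

/-- the number of true bits -/
def cnt {S : Type} [Fintype S] (b : S → Bool) : ℕ := (univ.filter fun e => b e = true).card

theorem card_cnt (S : Type) [Fintype S] [DecidableEq S] (m : ℕ) :
    (univ.filter fun b : S → Bool => cnt b = m).card = (Fintype.card S).choose m := by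
  rw [← card_univ (α := S), ← card_powersetCard]
  refine card_nbij' (fun b => univ.filter fun e => b e = true) (fun T e => decide (e ∈ T)) ?_ ?_ ?_ ?_
  · intro b hb
    exact mem_coe.2 (mem_powersetCard.2 ⟨subset_univ _, (mem_filter.1 (mem_coe.1 hb)).2⟩)
  · intro T hT
    refine mem_coe.2 (mem_filter.2 ⟨mem_univ _, ?_⟩)
    have h := (mem_powersetCard.1 (mem_coe.1 hT)).2
    rw [cnt]
    simpa using h
  · intro b _
    funext e
    simp
  · intro T _
    ext e
    simp

theorem card_le_sub (S : Type) [Fintype S] (p : S → Prop) [DecidablePred p] (b : S → Bool) :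
    cnt b = cnt (fun e : {e // p e} => b e) + cnt (fun e : {e // ¬ p e} => b e) := by
  classical
  unfold cnt
  have h1 : (univ.filter fun e : {e // p e} => b e = true).card = (univ.filter fun e => b e = true ∧ p e).card := by
    rw [← card_map (Function.Embedding.subtype p)]
    congr 1
    ext e
    simp only [Finset.mem_map, mem_filter, mem_univ, true_and, Function.Embedding.coe_subtype]
    constructor
    · rintro ⟨x, hx, rfl⟩
      exact ⟨hx, x.2⟩
    · rintro ⟨h1, h2⟩
      exact ⟨⟨e, h2⟩, h1, rfl⟩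
  have h2 : (univ.filter fun e : {e // ¬ p e} => b e = true).card = (univ.filter fun e => b e = true ∧ ¬ p e).card := by
    rw [← card_map (Function.Embedding.subtype fun e => ¬ p e)]
    congr 1
    ext e
    simp only [Finset.mem_map, mem_filter, mem_univ, true_and, Function.Embedding.coe_subtype]
    constructor
    · rintro ⟨x, hx, rfl⟩
      exact ⟨hx, x.2⟩
    · rintro ⟨h1, h2⟩
      exact ⟨⟨e, h2⟩, h1, rfl⟩
  rw [h1, h2, ← filter_filter, ← filter_filter]
  exact (card_filter_add_card_filter_not (s := univ.filter fun e => b e = true) p).symm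

/-- arrays with a given number of true bits, in an event which depends on few coordinates -/
theorem slice_lower {S : Type} [Fintype S] [DecidableEq S] (p : S → Prop) [DecidablePred p]
    (E : Set (S → Bool)) [DecidablePred (· ∈ E)] (hE : ∀ b b' : S → Bool, (∀ e, p e → b e = b' e) → (b ∈ E ↔ b' ∈ E))
    (m : ℕ) (L : ℝ) (hL : ∀ c ≤ Fintype.card {e // p e}, c ≤ m ∧ L ≤ (Fintype.card {e // ¬ p e}).choose (m - c)) :
    ((univ.filter fun b : S → Bool => b ∈ E).card : ℝ) * L ≤
      ((univ.filter fun b : S → Bool => b ∈ E ∧ cnt b = m).card : ℝ) * 2 ^ Fintype.card {e // ¬ p e} := by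
  classical
  set Φ := Equiv.piEquivPiSubtypeProd p (fun _ : S => Bool) with hΦ
  have hΦ1 : ∀ (u : {e // p e} → Bool) (v : {e // ¬ p e} → Bool) (e : S) (he : p e), Φ.symm (u, v) e = u ⟨e, he⟩ := by
    intro u v e he
    simp [hΦ, Equiv.piEquivPiSubtypeProd, he]
  have hΦ2 : ∀ (u : {e // p e} → Bool) (v : {e // ¬ p e} → Bool) (e : S) (he : ¬ p e), Φ.symm (u, v) e = v ⟨e, he⟩ := by
    intro u v e he
    simp [hΦ, Equiv.piEquivPiSubtypeProd, he]
  set U : Finset ({e // p e} → Bool) := univ.filter fun u => Φ.symm (u, fun _ => false) ∈ E with hU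
  have hmem : ∀ u v, Φ.symm (u, v) ∈ E ↔ u ∈ U := by
    intro u v
    rw [hU, mem_filter]
    simp only [mem_univ, true_and]
    refine hE _ _ fun e he => ?_
    rw [hΦ1 u v e he, hΦ1 u _ e he]
  -- the size of the event
  have h1 : (univ.filter fun b : S → Bool => b ∈ E).card ≤ U.card * 2 ^ Fintype.card {e // ¬ p e} := by
    have h2 : (univ.filter fun b : S → Bool => b ∈ E).card ≤ (U ×ˢ (univ : Finset ({e // ¬ p e} → Bool))).card := by
      refine card_le_card_of_injOn Φ (fun b hb => ?_) Φ.injective.injOn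
      have hb' : b ∈ E := (mem_filter.1 (mem_coe.1 hb)).2
      refine mem_coe.2 (mem_product.2 ⟨?_, mem_univ _⟩)
      rw [← hmem (Φ b).1 (Φ b).2, Prod.mk.eta, Equiv.symm_apply_apply]
      exact hb'
    rw [card_product, card_univ, Fintype.card_fun, Fintype.card_bool] at h2
    exact h2
  -- the fibres
  have h2 : (U.card : ℝ) * L ≤ ((univ.filter fun b : S → Bool => b ∈ E ∧ cnt b = m).card : ℝ) := by
    have h3 : ((univ.filter fun b : S → Bool => b ∈ E ∧ cnt b = m).card : ℕ) =
        ∑ u ∈ U, ((univ.filter fun b : S → Bool => b ∈ E ∧ cnt b = m).filter fun b => (Φ b).1 = u).card := by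
      refine card_eq_sum_card_fiberwise fun b hb => ?_
      have hb' : b ∈ E := (mem_filter.1 (mem_coe.1 hb)).2.1
      show (Φ b).1 ∈ (U : Set _)
      rw [mem_coe, ← hmem (Φ b).1 (Φ b).2, Prod.mk.eta, Equiv.symm_apply_apply]
      exact hb'
    rw [h3, Nat.cast_sum, ← nsmul_eq_mul, ← sum_const]
    refine sum_le_sum fun u hu => ?_
    have hcu : cnt u ≤ Fintype.card {e // p e} := by
      rw [cnt]
      exact (card_filter_le _ _).trans (le_of_eq (card_univ))
    obtain ⟨h4, h5⟩ := hL (cnt u) hcu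
    refine h5.trans ?_
    rw [← card_cnt]
    have h6 : (univ.filter fun v : {e // ¬ p e} → Bool => cnt v = m - cnt u).card ≤
        ((univ.filter fun b : S → Bool => b ∈ E ∧ cnt b = m).filter fun b => (Φ b).1 = u).card := by
      refine card_le_card_of_injOn (fun v => Φ.symm (u, v)) (fun v hv => ?_) fun v _ v' _ h => ?_
      · have hv' := (mem_filter.1 (mem_coe.1 hv)).2
        refine mem_coe.2 (mem_filter.2 ⟨mem_filter.2 ⟨mem_univ _, (hmem u v).2 hu, ?_⟩, ?_⟩)
        · rw [card_le_sub S p]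
          have e1 : (fun e : {e // p e} => Φ.symm (u, v) e) = u := by
            funext e
            exact hΦ1 u v e e.2
          have e2 : (fun e : {e // ¬ p e} => Φ.symm (u, v) e) = v := by
            funext e
            exact hΦ2 u v e e.2
          rw [e1, e2, hv']
          omega
        · rw [Equiv.apply_symm_apply]
      · have := Φ.symm.injective h
        exact (Prod.mk.inj this).2
    exact_mod_cast h6
  have hL0 : 0 ≤ L ∨ L < 0 := le_or_gt 0 L
  rcases hL0 with h0 | h0
  · have h1' : ((univ.filter fun b : S → Bool => b ∈ E).card : ℝ) ≤ U.card * 2 ^ Fintype.card {e // ¬ p e} := by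
      exact_mod_cast h1
    calc _ ≤ ((U.card : ℝ) * 2 ^ Fintype.card {e // ¬ p e}) * L := mul_le_mul_of_nonneg_right h1' h0
      _ = ((U.card : ℝ) * L) * 2 ^ Fintype.card {e // ¬ p e} := by ring
      _ ≤ _ := mul_le_mul_of_nonneg_right h2 (by positivity)
  · have h3 : ((univ.filter fun b : S → Bool => b ∈ E).card : ℝ) * L ≤ 0 :=
      mul_nonpos_of_nonneg_of_nonpos (Nat.cast_nonneg _) h0.le
    exact h3.trans (mul_nonneg (Nat.cast_nonneg _) (pow_nonneg (by norm_num) _))

variable {n : ℕ}

theorem ncard_minus (b : Bits n) :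
    {p : Fin n × Fin n | p.1 ≤ p.2 ∧ signMat b p.1 p.2 = -1}.ncard = cnt b := by
  classical
  have h1 : {p : Fin n × Fin n | p.1 ≤ p.2 ∧ signMat b p.1 p.2 = -1} =
      (fun e : Sym2 (Fin n) => ((Sym2.sortEquiv e : {p : Fin n × Fin n // p.1 ≤ p.2}) : Fin n × Fin n)) ''
        {e | b e = true} := by
    ext p
    constructor
    · rintro ⟨h1, h2⟩
      have h3 : (if b s(p.1, p.2) then (-1 : ℤ) else 1) = -1 := h2
      refine ⟨s(p.1, p.2), ?_, ?_⟩
      · by_contra hb
        have hb' : b s(p.1, p.2) = false := Bool.eq_false_iff.2 hb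
        rw [hb'] at h3
        simp at h3
      · have h4 : Sym2.sortEquiv s(p.1, p.2) = ⟨p, h1⟩ := by
          rw [← Equiv.eq_symm_apply]
          rfl
        show ((Sym2.sortEquiv s(p.1, p.2) : {p : Fin n × Fin n // p.1 ≤ p.2}) : Fin n × Fin n) = p
        rw [h4]
    · rintro ⟨e, he, rfl⟩
      refine ⟨(Sym2.sortEquiv e).2, ?_⟩
      have h4 : s(((Sym2.sortEquiv e : {p : Fin n × Fin n // p.1 ≤ p.2}) : Fin n × Fin n).1,
          ((Sym2.sortEquiv e : {p : Fin n × Fin n // p.1 ≤ p.2}) : Fin n × Fin n).2) = e :=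
        Sym2.sortEquiv.symm_apply_apply e
      show (if b s(((Sym2.sortEquiv e : {p : Fin n × Fin n // p.1 ≤ p.2}) : Fin n × Fin n).1,
          ((Sym2.sortEquiv e : {p : Fin n × Fin n // p.1 ≤ p.2}) : Fin n × Fin n).2) then (-1 : ℤ) else 1) = -1
      rw [h4]
      have he' : b e = true := he
      rw [he']
      rfl
  have hinj : Function.Injective (fun e : Sym2 (Fin n) =>
      ((Sym2.sortEquiv e : {p : Fin n × Fin n // p.1 ≤ p.2}) : Fin n × Fin n)) :=
    Subtype.val_injective.comp Sym2.sortEquiv.injective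
  rw [h1, Set.ncard_image_of_injective _ hinj, cnt, ← Set.ncard_coe_finset]
  congr 1
  ext e
  simp

theorem pr_slice (n m : ℕ) : pr (Slice n m) {A | A.det = 0} =
    ((univ.filter fun b : Bits n => (signMat b).det = 0 ∧ cnt b = m).card : ℝ) /
      ((Fintype.card (Sym2 (Fin n))).choose m : ℝ) := by
  classical
  have h1 : Slice n m = signMat '' {b : Bits n | cnt b = m} := by
    ext A
    constructor
    · rintro ⟨h1, h2⟩
      rw [← range_signMat] at h1
      obtain ⟨b, rfl⟩ := h1
      rw [ncard_minus] at h2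
      exact ⟨b, h2, rfl⟩
    · rintro ⟨b, hb, rfl⟩
      refine ⟨?_, ?_⟩
      · rw [← range_signMat]
        exact ⟨b, rfl⟩
      · rw [ncard_minus]
        exact hb
  have h2 : Slice n m ∩ {A | A.det = 0} = signMat '' {b : Bits n | (signMat b).det = 0 ∧ cnt b = m} := by
    rw [h1]
    ext A
    constructor
    · rintro ⟨⟨b, hb, rfl⟩, h⟩
      exact ⟨b, ⟨h, hb⟩, rfl⟩
    · rintro ⟨b, ⟨h, hb⟩, rfl⟩
      exact ⟨⟨b, hb, rfl⟩, h⟩
  rw [pr, h2, h1, Set.ncard_image_of_injective _ signMat_injective, Set.ncard_image_of_injective _ signMat_injective,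
    ← card_cnt]
  congr 2
  · rw [← Set.ncard_coe_finset]
    congr 1
    ext b
    simp
  · rw [← Set.ncard_coe_finset]
    congr 1
    ext b
    simp

theorem card_sym2 (n : ℕ) : (Fintype.card (Sym2 (Fin n)) : ℝ) = n * (n + 1) / 2 := by
  have h : Fintype.card (Sym2 (Fin n)) = (n + 1).choose 2 := by
    rw [Sym2.card, Fintype.card_fin]
  rw [h, Nat.cast_choose_two]
  push_cast
  ring

theorem slice_main (hs : Small fun n => {b : Bits n | (signMat b).det = 0}) (m : ℕ → ℕ)
    (hm : Tendsto (fun n : ℕ => ((m n : ℝ) - (n : ℝ) ^ 2 / 4) / (n : ℝ) ^ (3 / 2 : ℝ)) atTop (𝓝 0)) :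
    Tendsto (fun n : ℕ => pr (Slice n (m n)) {A | A.det = 0} ^ (1 / (n : ℝ))) atTop (𝓝 (1 / 2)) := by
  classical
  -- the deviation from the middle
  have hhalf : Tendsto (fun n : ℕ => (n : ℝ) ^ (1 / 2 : ℝ)) atTop atTop :=
    (tendsto_rpow_atTop (by norm_num : (0 : ℝ) < 1 / 2)).comp tendsto_natCast_atTop_atTop
  have hdev : ∀ η : ℝ, 0 < η → ∀ᶠ n : ℕ in atTop,
      |2 * (m n : ℝ) - Fintype.card (Sym2 (Fin n))| + 4 * n ≤ η * (n : ℝ) ^ (3 / 2 : ℝ) := by
    intro η hη
    have h1 := (tendsto_order.1 hm.abs).2 (η / 4) (by rw [abs_zero]; positivity)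
    filter_upwards [h1, hhalf.eventually_ge_atTop (10 / η), eventually_ge_atTop 1] with n h2 h3 h4
    have hn : (0 : ℝ) < n := by
      have : 0 < n := h4
      exact_mod_cast this
    have h5 : (0 : ℝ) < (n : ℝ) ^ (3 / 2 : ℝ) := by positivity
    rw [abs_div, abs_of_pos h5, div_lt_iff₀ h5] at h2
    rw [div_le_iff₀ hη] at h3
    have h6 : (n : ℝ) ^ (3 / 2 : ℝ) = n * (n : ℝ) ^ (1 / 2 : ℝ) := by
      nth_rewrite 2 [← Real.rpow_one (n : ℝ)]
      rw [← Real.rpow_add hn]
      norm_num
    have h7 : 10 * (n : ℝ) ≤ η * (n : ℝ) ^ (3 / 2 : ℝ) := by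
      rw [h6]
      nlinarith
    rw [card_sym2]
    have h8 : 2 * (m n : ℝ) - n * (n + 1) / 2 = 2 * ((m n : ℝ) - (n : ℝ) ^ 2 / 4) + -(n / 2 : ℝ) := by ring
    have h9 : |2 * (m n : ℝ) - n * (n + 1) / 2| ≤ 2 * |(m n : ℝ) - (n : ℝ) ^ 2 / 4| + n / 2 := by
      rw [h8]
      refine (abs_add_le _ _).trans ?_
      rw [abs_mul, abs_neg, abs_of_pos (show (0 : ℝ) < 2 by norm_num), abs_of_pos (show (0 : ℝ) < (n : ℝ) / 2 by positivity)]
    linarith
  have hx0 : ∀ n, 0 ≤ pr (Slice n (m n)) {A | A.det = 0} := fun n => by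
    rw [pr]
    positivity
  refine H462.tendsto_root _ hx0 (fun ε hε => ?_) fun ε hε => ?_
  · -- upper bound
    obtain ⟨η, hη, h1⟩ := choose_mid (ε / 2) (by positivity)
    filter_upwards [hs (ε / 2) (by positivity), h1, hdev η hη, eventually_ge_atTop 1] with n h2 h3 h4 hn1
    have hn : (1 : ℝ) ≤ n := by exact_mod_cast hn1
    have h5 := h3 (Fintype.card (Sym2 (Fin n))) (m n) (by rw [card_sym2]; nlinarith) (by rw [card_sym2]; nlinarith)
      (by linarith)
    rw [pr_slice]
    have h6 : ((univ.filter fun b : Bits n => (signMat b).det = 0 ∧ cnt b = m n).card : ℝ) ≤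
        ((univ.filter fun b : Bits n => b ∈ {b | (signMat b).det = 0}).card : ℝ) := by
      have h7 : (univ.filter fun b : Bits n => (signMat b).det = 0 ∧ cnt b = m n) ⊆
          univ.filter fun b : Bits n => b ∈ {b | (signMat b).det = 0} :=
        fun b hb => mem_filter.2 ⟨mem_univ _, (mem_filter.1 hb).2.1⟩
      exact_mod_cast card_le_card h7
    have h2N : (0 : ℝ) < 2 ^ Fintype.card (Sym2 (Fin n)) := by positivity
    rw [H462.prob_zero, div_le_iff₀ h2N] at h2
    have h7 : (0 : ℝ) < (Fintype.card (Sym2 (Fin n))).choose (m n) := lt_of_lt_of_le (by positivity) h5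
    rw [div_le_iff₀ h7]
    calc _ ≤ Real.exp (-((Real.log 2 - ε / 2) * n)) * 2 ^ Fintype.card (Sym2 (Fin n)) := h6.trans h2
      _ = Real.exp (-((Real.log 2 - ε) * n)) * (2 ^ Fintype.card (Sym2 (Fin n)) * Real.exp (-(ε / 2 * n))) := by
          rw [mul_comm (2 ^ Fintype.card (Sym2 (Fin n)) : ℝ) (Real.exp _), ← mul_assoc, ← Real.exp_add]
          congr 2
          ring
      _ ≤ _ := mul_le_mul_of_nonneg_left h5 (Real.exp_pos _).le
  · -- lower bound
    obtain ⟨η, hη, h1⟩ := choose_mid ε hε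
    filter_upwards [h1, hdev η hη, eventually_ge_atTop 12, hdev (1 / 4) (by norm_num)] with n h3 h4 hn12 h4'
    have hn : (12 : ℝ) ≤ n := by exact_mod_cast hn12
    have hn0 : (0 : ℝ) < n := by linarith
    set i : Fin n := ⟨0, by omega⟩ with hi
    set j : Fin n := ⟨1, by omega⟩ with hj
    have hij : i ≠ j := by simp [hi, hj]
    let p : Sym2 (Fin n) → Prop := fun e => i ∈ e ∨ j ∈ e
    have hEq : ∀ b b' : Bits n, (∀ e, p e → b e = b' e) → (b ∈ EqRows i j ↔ b' ∈ EqRows i j) := by
      intro b b' hb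
      have h10 : ∀ k, b s(i, k) = b' s(i, k) := fun k => hb _ (Or.inl (Sym2.mem_mk_left i k))
      have h11 : ∀ k, b s(j, k) = b' s(j, k) := fun k => hb _ (Or.inr (Sym2.mem_mk_left j k))
      constructor
      · intro h k; rw [← h10, ← h11]; exact h k
      · intro h k; rw [h10, h11]; exact h k
    set N := Fintype.card (Sym2 (Fin n)) with hN
    have hNr : (N : ℝ) = n * (n + 1) / 2 := card_sym2 n
    -- the number of coordinates of the two rows
    have hU : Fintype.card {e // p e} ≤ 2 * n := by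
      rw [Fintype.card_subtype]
      have h5 : (univ.filter p) ⊆ (univ.image fun k => s(i, k)) ∪ univ.image fun k => s(j, k) := by
        intro e he
        rcases (mem_filter.1 he).2 with h | h
        · obtain ⟨c, hc⟩ := h
          exact mem_union_left _ (mem_image.2 ⟨c, mem_univ _, hc.symm⟩)
        · obtain ⟨c, hc⟩ := h
          exact mem_union_right _ (mem_image.2 ⟨c, mem_univ _, hc.symm⟩)
      refine (card_le_card h5).trans ((card_union_le _ _).trans ?_)
      have h6 : ∀ a : Fin n, (univ.image fun k => s(a, k)).card ≤ n := fun a =>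
        card_image_le.trans (le_of_eq (by rw [card_univ, Fintype.card_fin]))
      have := h6 i
      have := h6 j
      omega
    have hV : Fintype.card {e // ¬ p e} + Fintype.card {e // p e} = N := by
      rw [Fintype.card_subtype_compl]
      have := Fintype.card_subtype_le p
      omega
    have hVr : (Fintype.card {e // ¬ p e} : ℝ) + Fintype.card {e // p e} = N := by exact_mod_cast hV
    have hUr : (Fintype.card {e // p e} : ℝ) ≤ 2 * n := by exact_mod_cast hU
    have habs := abs_le.1 (show |2 * (m n : ℝ) - N| ≤ η * (n : ℝ) ^ (3 / 2 : ℝ) - 4 * n by linarith)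
    have habs' := abs_le.1 (show |2 * (m n : ℝ) - N| ≤ 1 / 4 * (n : ℝ) ^ (3 / 2 : ℝ) - 4 * n by linarith)
    have h32 : (n : ℝ) ^ (3 / 2 : ℝ) ≤ (n : ℝ) ^ 2 := by
      rw [← Real.rpow_natCast (n : ℝ) 2]
      exact Real.rpow_le_rpow_of_exponent_le (by linarith) (by norm_num)
    have hL : ∀ c ≤ Fintype.card {e // p e}, c ≤ m n ∧
        (2 : ℝ) ^ Fintype.card {e // ¬ p e} * Real.exp (-(ε * n)) ≤ (Fintype.card {e // ¬ p e}).choose (m n - c) := by
      intro c hc
      have hcr : (c : ℝ) ≤ Fintype.card {e // p e} := by exact_mod_cast hc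
      have hc0 : (0 : ℝ) ≤ c := Nat.cast_nonneg _
      have hcm : c ≤ m n := by
        have : (c : ℝ) ≤ m n := by nlinarith [habs'.1]
        exact_mod_cast this
      refine ⟨hcm, h3 _ _ ?_ ?_ ?_⟩
      · nlinarith
      · have : (0 : ℝ) ≤ Fintype.card {e // p e} := Nat.cast_nonneg _
        nlinarith
      · rw [Nat.cast_sub hcm]
        refine abs_le.2 ⟨?_, ?_⟩
        · linarith [habs.1]
        · linarith [habs.2]
    have h5 := slice_lower p (EqRows i j) hEq (m n) _ hL
    have h6 := H462.prob_eqRows i j hij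
    rw [H462.prob_zero, le_div_iff₀ (by positivity)] at h6
    rw [pr_slice]
    have hV0 : (0 : ℝ) < 2 ^ Fintype.card {e // ¬ p e} := by positivity
    have h7 : ((univ.filter fun b : Bits n => b ∈ EqRows i j).card : ℝ) * Real.exp (-(ε * n)) ≤
        ((univ.filter fun b : Bits n => b ∈ EqRows i j ∧ cnt b = m n).card : ℝ) := by
      refine le_of_mul_le_mul_right ?_ hV0
      calc _ = ((univ.filter fun b : Bits n => b ∈ EqRows i j).card : ℝ) *
            ((2 : ℝ) ^ Fintype.card {e // ¬ p e} * Real.exp (-(ε * n))) := by ring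
        _ ≤ _ := h5
    have h8 : ((univ.filter fun b : Bits n => b ∈ EqRows i j ∧ cnt b = m n).card : ℝ) ≤
        ((univ.filter fun b : Bits n => (signMat b).det = 0 ∧ cnt b = m n).card : ℝ) := by
      have h7 : (univ.filter fun b : Bits n => b ∈ EqRows i j ∧ cnt b = m n) ⊆
          univ.filter fun b : Bits n => (signMat b).det = 0 ∧ cnt b = m n :=
        fun b hb => mem_filter.2 ⟨mem_univ _,
          H462.det_of_eqRows_sign hij (mem_filter.1 hb).2.1, (mem_filter.1 hb).2.2⟩
      exact_mod_cast card_le_card h7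
    have h9 : (0 : ℝ) < N.choose (m n) := by
      have h10 := h3 N (m n) (by rw [hNr]; nlinarith) (by rw [hNr]; nlinarith) (by linarith)
      exact lt_of_lt_of_le (by positivity) h10
    have h10 : (N.choose (m n) : ℝ) ≤ 2 ^ N := by exact_mod_cast Nat.choose_le_two_pow N (m n)
    rw [le_div_iff₀ h9]
    calc Real.exp (-((Real.log 2 + ε) * n)) * (N.choose (m n) : ℝ)
        ≤ Real.exp (-((Real.log 2 + ε) * n)) * 2 ^ N := mul_le_mul_of_nonneg_left h10 (Real.exp_pos _).le
      _ = ((1 / 2 : ℝ) ^ n * 2 ^ N) * Real.exp (-(ε * n)) := by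
          have e0 : (1 / 2 : ℝ) ^ n = Real.exp (-(Real.log 2 * n)) := by
            rw [Real.exp_neg, mul_comm (Real.log 2), Real.exp_nat_mul, Real.exp_log (by norm_num), one_div, inv_pow]
          rw [e0]
          have e1 : Real.exp (-((Real.log 2 + ε) * n)) = Real.exp (-(Real.log 2 * n)) * Real.exp (-(ε * n)) := by
            rw [← Real.exp_add]
            congr 1
            ring
          rw [e1]
          ring
      _ ≤ ((univ.filter fun b : Bits n => b ∈ EqRows i j).card : ℝ) * Real.exp (-(ε * n)) :=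
          mul_le_mul_of_nonneg_right h6 (Real.exp_pos _).le
      _ ≤ _ := h7.trans h8

end Vale.Agent.P160.H884
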